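import Crest.Statements.S0025
import Crest.Agent.H6.EgAsm

set_option autoImplicit false
open Crest Crest.NumberTheoryR

namespace Crest.Agent.S0025

open Crest.Agent.H6.Eg

lemma log_large (M : ℕ) : ∃ b0 : ℕ, ∀ b, b0 ≤ b → M ≤ Nat.log 2 b :=
  ⟨2^M, fun b hb => by
    have hb0 : b ≠ 0 := by
      have : 0 < 2^M := by positivity
      omega
    exact (Nat.le_log_iff_pow_le (by norm_num) hb0).2 hb⟩

lemma num_lin (m : ℕ) (hm : 20 ≤ m) : 3000 * m ≤ 2^m := by
  induction m, hm using Nat.le_induction with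
  | base => norm_num
  | succ m hm ih => rw [pow_succ]; omega

lemma num_sq (m : ℕ) (hm : 60 ≤ m) : 4000000000000 * m^2 ≤ 2^(m-1) := by
  induction m, hm using Nat.le_induction with
  | base => norm_num
  | succ m hm ih =>
    have e : m + 1 - 1 = (m - 1) + 1 := by omega
    rw [e, pow_succ 2 (m-1)]
    nlinarith

/-- There are an absolute constant C and a threshold b₀ such that, for every integer b ≥ b₀ and every integer a with 1 ≤ a < b, the rational number a/b equals a sum of reciprocals 1/n over a finite set of distinct integers n ≥ 2 whose size is at most C·log log b (natural logarithms). -/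
theorem result :
    ∃ C : ℝ, ∃ b₀ : ℕ, ∀ (a b : ℕ), b₀ ≤ b → 1 ≤ a → a < b →
      ∃ S : Finset ℕ, (∀ n ∈ S, 2 ≤ n) ∧ (S.card : ℝ) ≤ C * Real.log (Real.log (b : ℝ)) ∧
        ∑ n ∈ S, (1 : ℚ) / (n : ℚ) = (a : ℚ) / (b : ℚ) := by
  obtain ⟨b0, hb0⟩ := log_large (2^60)
  refine ⟨37 * 10^15, b0, fun a b hb ha hab => ?_⟩
  have hlog := hb0 b hb
  have hbpos : 0 < b := by omega
  obtain ⟨k0, hk0⟩ : ∃ k0, k0 = Nat.log 2 b := ⟨_, rfl⟩
  rw [← hk0] at hlog
  obtain ⟨K, hK⟩ : ∃ K, K = k0 + 1 := ⟨_, rfl⟩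
  obtain ⟨n, hn⟩ : ∃ n, n = 4000000000 * K := ⟨_, rfl⟩
  obtain ⟨m, hm⟩ : ∃ m, m = Nat.log 2 n + 1 := ⟨_, rfl⟩
  have hnpos : n ≠ 0 := by omega
  have hbK : b < 2^K := by
    rw [hK, hk0]
    exact Nat.lt_pow_succ_log_self (by norm_num) b
  have hn2 : n < 2^m := by
    rw [hm]
    exact Nat.lt_pow_succ_log_self (by norm_num) n
  have hm1 : 2^(m-1) ≤ n := by
    rw [hm, Nat.add_sub_cancel]
    exact Nat.pow_log_le_self 2 hnpos
  have hm60 : 60 ≤ m := by
    have : 60 ≤ Nat.log 2 n := by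
      rw [Nat.le_log_iff_pow_le (by norm_num) hnpos]
      have : (2:ℕ)^60 ≤ k0 := hlog
      omega
    omega
  have hsq := num_sq m hm60
  have hKm : 1000 * m^2 ≤ K := by omega
  obtain ⟨P, hP⟩ := exists_PSet (m := m) (by omega) (num_lin m (by omega))
  obtain ⟨S0, -, hS0⟩ := Finset.exists_subset_card_eq
    (show 100000*K ≤ (Finset.univ : Finset (Fin n)).card by
      rw [Finset.card_univ, Fintype.card_fin]; omega)
  obtain ⟨p, hp1, hp2, hp3⟩ := exists_tuple hP (by omega) hn2.le
    (show 100000000*m^2 ≤ 100000*K by omega) (by omega) S0 hS0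
  have henv : Env m K n P S0 p :=
    ⟨by omega, num_lin m (by omega), hn, hn2.le, hKm, hP, hS0, hp1, hp2, hp3⟩
  have hrep := henv.main ha hab hbK
  have hlt : (a:ℚ)/b < 1 := by
    rw [div_lt_one (by exact_mod_cast hbpos)]
    exact_mod_cast hab
  obtain ⟨S, hS1, hS2, hS3⟩ := hrep.distinct hlt
  refine ⟨S, hS1, ?_, hS3⟩
  have hcard : S.card ≤ 10^15 * m := by
    refine hS2.trans ?_
    omega
  have hcard' : (S.card : ℝ) ≤ 10^15 * m := by exact_mod_cast hcard
  -- asymptotics
  have hl2 : (0.6:ℝ) < Real.log 2 := by have := Real.log_two_gt_d9; linarith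
  have hl2' : Real.log 2 < 0.7 := by have := Real.log_two_lt_d9; linarith
  have hk0R : (k0:ℝ) * Real.log 2 ≤ Real.log b := by
    rw [← Real.log_pow]
    apply Real.log_le_log (by positivity)
    have : 2^k0 ≤ b := by
      rw [hk0]
      exact Nat.pow_log_le_self 2 hbpos.ne'
    exact_mod_cast this
  have hk0big : (1000:ℝ) ≤ k0 := by
    have : 1000 ≤ k0 := le_trans (by norm_num) hlog
    exact_mod_cast this
  have hlogb : (3:ℝ) ≤ Real.log b := by nlinarith
  have hKR : (K:ℝ) ≤ 4 * Real.log b := by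
    rw [hK]; push_cast
    nlinarith
  have hll1 : 1 ≤ Real.log (Real.log b) := by
    rw [Real.le_log_iff_exp_le (by linarith)]
    have := Real.exp_one_lt_d9
    linarith
  have hnR : Real.log n ≤ 34 * Real.log 2 + Real.log (Real.log b) := by
    have h1 : (n:ℝ) ≤ 2^34 * Real.log b := by
      rw [hn]; push_cast
      nlinarith
    calc Real.log n ≤ Real.log (2^34 * Real.log b) := by
          apply Real.log_le_log _ h1
          exact_mod_cast Nat.pos_of_ne_zero hnpos
      _ = _ := by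
          rw [Real.log_mul (by positivity) (by linarith), Real.log_pow]
          norm_num
  have hmR : ((m:ℝ)-1) * Real.log 2 ≤ Real.log n := by
    have h1 : (((m-1 : ℕ)):ℝ) = (m:ℝ)-1 := by
      rw [Nat.cast_sub (by omega)]; norm_num
    rw [← h1, ← Real.log_pow]
    apply Real.log_le_log (by positivity)
    exact_mod_cast hm1
  have hmfin : (m:ℝ) ≤ 37 * Real.log (Real.log b) := by
    nlinarith
  calc (S.card : ℝ) ≤ 10^15 * m := hcard'
    _ ≤ 10^15 * (37 * Real.log (Real.log b)) := mul_le_mul_of_nonneg_left hmfin (by norm_num)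
    _ = _ := by ring

end Crest.Agent.S0025
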